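import Vale.Agent.P352X.R.ELL.A
import Vale.Agent.P352Z.P352X.R.Br

open Vale.Agent.P352G

/-!
# P352X, row ELL: the potential as an operator on the square integrable functions on the cone
-/

set_option linter.all false

noncomputable section

open MeasureTheory Filter Topology Complex Set
open scoped SchwartzMap ComplexConjugate ENNReal NNReal

namespace Vale.Agent.P352X.El

open Vale.Agent.P352.GF Vale.Agent.P352.BW Vale.Agent.P352.H496 Vale.Agent.P352.H755
open Vale.Agent.P352.H246 (linv isLor_linv box In)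
open UniformSpace (Completion)
open SN

variable {D : Type*} [NormedAddCommGroup D] [InnerProductSpace ℂ D] [GrD D] (c : CtxZ D)

lemma l_zeroZ : c.l (fun _ => 0) = 0 := by
  simpa using c.hl.lin (fun _ => 0) (fun _ => 0) 1 ⟨0, rfl⟩ ⟨0, rfl⟩

/-- the potential on Schwartz space -/
def lcZ : Sch →L[ℂ] Completion D where
  toFun g := c.l (ev g)
  map_add' f g := by
    have := c.hl.lin (ev f) (ev g) 1 ⟨f, rfl⟩ ⟨g, rfl⟩
    simp only [one_mul, one_smul] at this
    exact this
  map_smul' a f := by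
    have := c.hl.lin (fun _ => 0) (ev f) a ⟨0, rfl⟩ ⟨f, rfl⟩
    simp only [zero_add, l_zeroZ] at this
    exact this
  cont := c.hl.cont

variable {c}

lemma cov2Z (lie : LIE) (g : GRPZ c) : c.Cov2 c.l (-1) (-1) where
  lin f f' a h h' := c.hl.lin f f' a h.1 h'.1
  bd K _ := by
    obtain ⟨m, C, -, h⟩ := lie.clm V ((normSeminorm ℂ _).comp (lcZ c).toLinearMap)
      (lcZ c).continuous.norm
    exact ⟨m, C, fun f _ => h f⟩
  tra a f h := by
    simpa only [P352.HM.sim_tr, one_pow, inv_one, one_smul, Ut] using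
      g.pot 1 P352.GF.one a f one_pos isLor_one h.1
  rot w f h := by
    simpa only [(g.lga w).2, one_pow, inv_one, one_smul, Ga] using
      g.pot 1 _ 0 f one_pos (g.lga w).1 h.1
  sca r s f hr hs h := by
    have := g.pot _ _ 0 f (Real.sqrt_pos.2 (mul_pos hr hs)) (g.lsc r s hr hs).1 h.1
    simp only [(g.lsc r s hr hs).2, Real.sq_sqrt (mul_pos hr hs).le] at this
    rw [Real.rpow_neg_one, Real.rpow_neg_one, ← mul_inv, coe_smul]
    exact this
  perp f h := g.perpl f h.1

/-- the two point function of the potential -/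
theorem exists_iotaZ (lie : LIE) (g : GRPZ c) (z : ZCZ c) : ∃ (ι : LF →L[ℂ] Completion D) (c0 : ℝ)
    (F : Sch →L[ℂ] LF), 0 ≤ c0 ∧ DenseRange F ∧ (∀ f, F f =ᵐ[volume.restrict Fc] ft (ev f)) ∧
    (∀ f, ι (F f) = c.l (ev f)) ∧ ∀ u v, inner ℂ (ι u) (ι v) = c0 * inner ℂ u v := by
  obtain ⟨F, hd, hF⟩ := exists_F
  obtain ⟨κ, hκ⟩ := z.cls _ _ (cov2Z lie g) (cov2Z lie g)
  have h1 : ∀ f f', inner ℂ (lcZ c f) (lcZ c f') = κ * inner ℂ (F f) (F f') := fun f f' => by
    obtain ⟨-, u, -, -, hu, -, lu⟩ := ST.exists_cut f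
    obtain ⟨-, u', -, -, hu', -, lu'⟩ := ST.exists_cut f'
    refine tendsto_nhds_unique ((((lcZ c).continuous.tendsto _).comp lu).inner (𝕜 := ℂ)
      (((lcZ c).continuous.tendsto _).comp lu')) (Tendsto.congr (fun n => ?_)
      ((((F.continuous.tendsto _).comp lu).inner (𝕜 := ℂ)
        ((F.continuous.tendsto _).comp lu')).const_mul κ))
    rw [Function.comp_apply, Function.comp_apply, inner_F hF]
    exact (hκ _ _ ⟨⟨u n, rfl⟩, hu n, subset_univ _⟩ ⟨⟨u' n, rfl⟩, hu' n, subset_univ _⟩).symm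
  obtain ⟨c0, h0, h2⟩ : ∃ c0 : ℝ, 0 ≤ c0 ∧
      ∀ f f', inner ℂ (lcZ c f) (lcZ c f') = c0 * inner ℂ (F f) (F f') := by
    by_cases h : ∃ f, F f ≠ 0
    · obtain ⟨f, hf⟩ := h
      refine ⟨‖lcZ c f‖ ^ 2 / ‖F f‖ ^ 2, by positivity, ?_⟩
      have := h1 f f
      rw [inner_self_eq_norm_sq_to_K, inner_self_eq_norm_sq_to_K] at this
      have e : κ = (‖lcZ c f‖ ^ 2 / ‖F f‖ ^ 2 : ℝ) := by
        have : (‖F f‖ : ℂ) ≠ 0 := by simpa using hf
        push_cast
        rw [eq_div_iff (by positivity)]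
        exact (by assumption : _ = κ * _).symm
      exact e ▸ h1
    · push Not at h
      exact ⟨0, le_rfl, fun f f' => by simp [h1, h]⟩
  have h3 : ∃ C, ∀ f, ‖(lcZ c).toLinearMap f‖ ≤ C * ‖F.toLinearMap f‖ := by
    refine ⟨Real.sqrt c0, fun f => (pow_le_pow_iff_left₀ (norm_nonneg _) (by positivity)
      two_ne_zero).1 (le_of_eq ?_)⟩
    have := h2 f f
    rw [inner_self_eq_norm_sq_to_K, inner_self_eq_norm_sq_to_K] at this
    rw [mul_pow, Real.sq_sqrt h0]
    refine ofReal_injective ?_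
    push_cast
    exact this
  have h4 := LinearMap.extendOfNorm_eq (f := (lcZ c).toLinearMap) (e := F.toLinearMap) hd h3
  refine ⟨(lcZ c).toLinearMap.extendOfNorm F.toLinearMap, c0, F, h0, hd, hF, h4, fun u v => ?_⟩
  refine hd.induction_on₂ (isClosed_eq (by fun_prop) (by fun_prop)) (fun f f' => ?_) u v
  exact (congrArg₂ (inner ℂ) (h4 f) (h4 f')).trans (h2 f f')

end Vale.Agent.P352X.El

end
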