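import Vale.Agent.P352Z.P352X.R.ELL.A

open Vale.Agent.P352G

/-!
# P352X, row ELL from the row ZC
-/

set_option linter.all false

noncomputable section

open MeasureTheory Filter Topology Complex Set
open scoped SchwartzMap ComplexConjugate ENNReal NNReal

namespace Vale.Agent.P352X

open Vale.Agent.P352.GF Vale.Agent.P352.BW Vale.Agent.P352.H496 Vale.Agent.P352.H755
open Vale.Agent.P352.H246 (linv isLor_linv box In)
open UniformSpace (Completion)
open SN El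

variable {D : Type*} [NormedAddCommGroup D] [InnerProductSpace ℂ D] [GrD D] {c : CtxZ D}

lemma El.cov_iotaZ (g : GRPZ c) {ι : LF →L[ℂ] Completion D} {F : Sch →L[ℂ] LF} (hd : DenseRange F)
    (hF : ∀ f, F f =ᵐ[volume.restrict Fc] ft (ev f)) (hl : ∀ f, ι (F f) = c.l (ev f))
    {s : ℝ} {L : Ix → V} (hs : 0 < s) (hL : IsLor L) (a : V) (u v : LF)
    (h : v =ᵐ[volume.restrict Fc] fun q =>
      (s ^ 2 : ℝ) * cexp (I * mdot q a) * u (sim s (linv L) 0 q)) : Ug c.Q s L a (ι u) = ι v := by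
  have hk := scF_sim hs (isLor_linv hL)
  have hm : Bd fun q : V => ((s ^ 2 : ℝ) : ℂ) * cexp (I * mdot q a) :=
    (Bd.expI (by fun_prop)).smul _
  have hT : ∀ u : LF, mulL hm (cmpL hk u) =ᵐ[volume.restrict Fc] fun q =>
      (s ^ 2 : ℝ) * cexp (I * mdot q a) * u (sim s (linv L) 0 q) := fun u => by
    filter_upwards [mulL_coe hm (cmpL hk u), cmpL_coe hk u] with q h1 h2
    rw [h1, h2, smul_eq_mul]
  rw [Lp.ext (h.trans (hT u).symm)]
  refine hd.induction_on (p := fun u => Ug c.Q s L a (ι u) = ι (mulL hm (cmpL hk u))) u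
    (isClosed_eq (by fun_prop) (by fun_prop)) fun f => ?_
  obtain ⟨f', hf⟩ := test_sim' (inv_pos.2 hs) (isLor_linv hL) (-sim s⁻¹ (linv L) 0 a) f
  have e : ev f = fun x => ev f' (sim s L a x) := by simp only [hf, sim_inv hs hL]
  have h1 : mulL hm (cmpL hk (F f)) = (((s ^ 2)⁻¹ : ℝ) : ℂ) • F f' := by
    refine Lp.ext ?_
    filter_upwards [hT (F f), hk.ae_eq (hF f), hF f', Lp.coeFn_smul (((s ^ 2)⁻¹ : ℝ) : ℂ) (F f')]
      with q h1 h2 h3 h4
    rw [h1, h2, h4, Pi.smul_apply, h3, mul_assoc, e, ft_sim hs hL, smul_eq_mul, ← mul_assoc,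
      ← ofReal_mul]
    congr 2
    field_simp
  rw [h1, map_smul, hl, hl, e, g.pot s L a _ hs hL ⟨f', rfl⟩, coe_smul]

theorem ell_ofZ (lie : LIE) (g : GRPZ c) (z : ZCZ c) : ELLZ c := by
  classical
  obtain ⟨ι, c0, F, h0, hd, hF, hl, hi⟩ := exists_iotaZ lie g z
  set ell : (V → ℂ) → Completion D := fun ψ =>
    if h : MemLp ψ 2 (volume.restrict Fc) then ι (h.toLp ψ) else 0
  have e1 : ∀ {ψ} (h : MemLp ψ 2 (volume.restrict Fc)), ell ψ = ι (h.toLp ψ) := fun h => dif_pos h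
  have e2 : ∀ (u : LF) {ψ}, u =ᵐ[volume.restrict Fc] ψ → ell ψ = ι u := fun u ψ h => by
    have m := (Lp.memLp u).ae_eq h
    rw [e1 m, Lp.ext (m.coeFn_toLp.trans h.symm)]
  have lin : ∀ ψ ψ' (a : ℂ), MemLp ψ 2 (volume.restrict Fc) → MemLp ψ' 2 (volume.restrict Fc) →
      ell (fun p => ψ p + a * ψ' p) = ell ψ + a • ell ψ' := fun ψ ψ' a h h' => by
    rw [e1 h, e1 h', ← map_smul, ← map_add, ← MemLp.toLp_const_smul, ← MemLp.toLp_add]
    exact e1 _
  have inn : ∀ ψ ψ', MemLp ψ 2 (volume.restrict Fc) → MemLp ψ' 2 (volume.restrict Fc) →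
      inner ℂ (ell ψ) (ell ψ') = c0 * ∫ p in Fc, conj (ψ p) * ψ' p := fun ψ ψ' h h' => by
    rw [e1 h, e1 h', hi, L2.inner_def]
    congr 1
    refine integral_congr_ae ?_
    filter_upwards [h.coeFn_toLp, h'.coeFn_toLp] with p h1 h2
    rw [h1, h2, RCLike.inner_apply, mul_comm]
  have pot : ∀ f, IsTest f → ell (ft f) = c.l f := by
    rintro _ ⟨f, rfl⟩
    rw [e2 _ (hF f), hl]
  have cov : ∀ s L a ψ ψ', 0 < s → IsLor L → MemLp ψ 2 (volume.restrict Fc) →
      (∀ p, ψ' (sim 1 L 0 p) = (s ^ 2 : ℝ) * cexp (I * mdot (sim 1 L 0 p) a) * ψ (s • p)) →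
      Ug c.Q s L a (ell ψ) = ell ψ' := fun s L a ψ ψ' hs hL h h' => by
    have hk := scF_sim hs (isLor_linv hL)
    have e : ψ' = fun q => (s ^ 2 : ℝ) * cexp (I * mdot q a) * ψ (sim s (linv L) 0 q) := by
      funext q
      rw [sim_smul (s := s), ← sim_linv hL q, h', linv_sim _ hL]
    have m : MemLp ψ' 2 (volume.restrict Fc) :=
      e ▸ ((Bd.expI (r := fun q => mdot q a) (by fun_prop)).smul _).memLp_smul (hk.memLp.2 h)
    rw [e1 h, e1 m]
    refine cov_iotaZ g hd hF hl hs hL a _ _ ?_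
    filter_upwards [m.coeFn_toLp, hk.ae_eq h.coeFn_toLp] with q h1 h2
    rw [h1, h2, e]
  have tra : ∀ a ψ, MemLp ψ 2 (volume.restrict Fc) →
      Ut c.Q a (ell ψ) = ell fun p => cexp (I * mdot p a) * ψ p := fun a ψ h =>
    cov 1 _ a ψ _ one_pos isLor_one h fun p => by simp [P352.HM.sim_tr]
  refine ⟨ell, c0, h0, lin, inn, pot, ?_, fun f ψ hf h => ?_, cov, ?_⟩
  · rintro _ ⟨f, rfl⟩
    have t : IsTest (box (ev f)) := ⟨_, (box_ev f).symm⟩
    have h1 := c.hl.trace (ev f) ⟨f, rfl⟩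
    have h2 := lin (fun _ => 0) _ (-1) MemLp.zero' (mem_ft t)
    rw [pot _ t, e2 0 (ψ := fun _ => 0) (Lp.coeFn_zero _ _ _), map_zero] at h2
    simp only [ft_box, zero_add, neg_mul, one_mul, neg_neg] at h2
    rw [h2, smul_smul]
    simpa [CtxZ.Th, CtxZ.Thf] using h1.symm
  · rw [e1 h, ← c.bt.iota isPair_mdot measurable_id ι (fun y => ?_) hf]
    · exact (congrArg ι (mulOp_toLp hf h)).trans (e1 _).symm
    · rw [← e1 h, tra y ψ h]
      exact (congrArg ι (mulOp_toLp (isPair_mdot.bd y) h)).trans (e1 _).symm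
  · refine s0_of c.a3 Br.isPair_pr3 inn (fun y ψ h => ?_) ft3_int
    have h1 := cov 1 _ 0 ψ (fun p => ψ (gap (-y.2) p)) one_pos (g.lga y.2).1 h fun p => by
      rw [(g.lga y.2).2]
      simp [gap_gap]
    rw [show Ga c.Q y.2 (ell ψ) = _ from h1, tra _ _ ((scF_gap _).memLp.2 h)]
    simp only [md_smul, md_va', mul_comm y.1]

end Vale.Agent.P352X

end
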